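import Vale.Agent.P356T92.Link
import Vale.Agent.P356.GA.Fin551
import Vale.Agent.P356.GA.S1Fin394

open scoped TensorProduct
open Module Vale.Agent.P356U

/-- **The area law for gapped ground states in two dimensions, on the tensor product.** -/
theorem Vale.Agent.Results.P356.ATensorProduct.result :
    (∀ (q : ℕ) (V : Type) [Fintype V] [DecidableEq V],
      (∃ e : Iso q V (EuclideanSpace ℂ (V → Fin q)), IsTensor e) ∧
      ∀ (H K : Type) [NormedAddCommGroup H] [InnerProductSpace ℂ H] [CompleteSpace H]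
        [NormedAddCommGroup K] [InnerProductSpace ℂ K] [CompleteSpace K],
        (∀ (e : Iso q V H) (f : Iso q V K), IsTensor e → IsTensor f → Unitarily e f) ∧
        ∀ (e : Iso q V H) (Ω : H) (A : Finset V) (f : Iso q A K),
          ∃! ρ : Op K, IsReduced e Ω A f ρ) ∧
    (∀ (M N : Type) [AddCommGroup M] [Module ℂ M] [FiniteDimensional ℂ M] [AddCommGroup N]
      [Module ℂ N] [FiniteDimensional ℂ N], PtraceRule M N) ∧
    (∀ (q L R : ℕ) (J : ℝ), 2 ≤ q → 0 < J →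
      ∀ (H : Type) [NormedAddCommGroup H] [InnerProductSpace ℂ H] [CompleteSpace H]
        (e : Iso q (Lam L) H), IsTensor e →
        ∃ (T : Op H) (Ω : H), Admissible e R J T ∧ Gap T J 0 Ω) ∧
    ∀ (q R : ℕ) (J Δ : ℝ), 2 ≤ q → 0 < J → 0 < Δ → ∃ C : ℝ, ∀ L : ℕ, 2 ≤ L →
      ∀ (H : Type) [NormedAddCommGroup H] [InnerProductSpace ℂ H] [CompleteSpace H]
        (e : Iso q (Lam L) H), IsTensor e → ∀ T : Op H, Admissible e R J T →
      ∀ (E : ℝ) (Ω : H), Gap T Δ E Ω → ∀ (A : Finset (Lam L))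
        (K : Type) [NormedAddCommGroup K] [InnerProductSpace ℂ K] [CompleteSpace K]
        (f : Iso q A K), IsTensor f → ∀ ρ : Op K, IsReduced e Ω A f ρ →
        IsState ρ ∧ ∃ S : ℝ, entropy ρ = S ∧ 0 ≤ S ∧ S ≤ C * (edgeBoundary A).ncard := by
  refine ⟨fun q V _ _ => ⟨exists_tensor q V, fun H K _ _ _ _ _ _ =>
    ⟨fun _ _ he hf => unique_tensor he hf, exists_reduced⟩⟩,
    fun M N _ _ _ _ _ _ => ptrace_rule M N,
    fun q L R J hq hJ H _ _ _ e he => exists_gap (by omega) he R hJ, fun q R J Δ hq hJ hΔ => ?_⟩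
  have hq1 : 1 ≤ q := by omega
  obtain ⟨C, -, h⟩ := Vale.Agent.P356.GA.strict_of_EnP551 (R := R) hq1 hJ hΔ
    (fun a C₁ C₂ ha ha1 _ _ => Vale.Agent.P356.GA.EnP_of_S1P hq1 hJ.le ha ha1
      (Vale.Agent.P356.GA.s1P394 hq1 ha ha1))
  exact ⟨C, fun L _ H _ _ _ e he T hT E Ω hg A K _ _ _ f hf ρ hρ =>
    main (fun L T hT E Ω hg A => h L T E Ω hT hg A) he hT hg hf hρ⟩
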